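import Mathlib.Algebra.Group.ConjFinite
import Mathlib.GroupTheory.OrderOfElement
import Mathlib.GroupTheory.SpecificGroups.Cyclic
import Mathlib.LinearAlgebra.Matrix.GeneralLinearGroup.Defs
import Mathlib.AlgebraicTopology.FundamentalGroupoid.FundamentalGroup
import Mathlib.Data.Real.Basic

/-!
# P216: conditions on the fundamental group. Only definitions.
-/

open Matrix

namespace Vale.Agent.N216

variable {G : Type} [Group G]

/-- The set `S` meets infinitely many conjugacy classes. -/
def ManyClasses (S : Set G) : Prop := (ConjClasses.mk '' S).Infinite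

/-- `z` generates an infinite cyclic malnormal subgroup. -/
def Malnormal (z : G) : Prop :=
  ¬ IsOfFinOrder z ∧
    ∀ (g : G) (m n : ℤ), m ≠ 0 → g * z ^ m * g⁻¹ = z ^ n → g ∈ Subgroup.zpowers z

/-- The powers of `a` meet infinitely many conjugacy classes, and the centraliser of `a` is not
cyclic or two powers of `a` with different exponents are conjugate. -/
def Flexible (a : G) : Prop :=
  ManyClasses (Subgroup.zpowers a : Set G) ∧
    (¬ IsCyclic (Subgroup.centralizer {a}) ∨ ∃ m n : ℤ, m ≠ n ∧ IsConj (a ^ m) (a ^ n))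

variable (G)

/-- Up to finitely many conjugacy classes, `G` consists of the conjugates of finitely many
undistorted malnormal infinite cyclic subgroups. -/
def Tight : Prop :=
  ∃ (F Z : Finset G) (l : G → ℝ), (∀ p q, l (p * q) ≤ l p + l q) ∧
    (∀ z ∈ Z, Malnormal z ∧ ∀ (q : G) (k : ℤ), IsConj q (z ^ k) → |(k : ℝ)| ≤ l q) ∧
    ∀ q : G, (∃ b ∈ F, IsConj q b) ∨ ∃ z ∈ Z, ∃ k : ℤ, IsConj q (z ^ k)

/-- `G` is finite, or virtually infinite cyclic, or linear over a field. -/
def Tame : Prop :=
  (∃ H : Subgroup G, H.FiniteIndex ∧ (H = ⊥ ∨ Nonempty (Multiplicative ℤ ≃* H))) ∨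
    ∃ (n : ℕ) (K : Type) (_ : Field K) (ρ : G →* GL (Fin n) K), Function.Injective ρ

/-- A subgroup of finite index has infinite centre. -/
def Central : Prop := ∃ H : Subgroup G, H.FiniteIndex ∧ Infinite (Subgroup.center H)

/-- Two commuting nontrivial subgroups generate a subgroup of finite index. -/
def Commuting : Prop :=
  ∃ A B : Subgroup G, A ≠ ⊥ ∧ B ≠ ⊥ ∧ A ≤ Subgroup.centralizer B ∧ (A ⊔ B).FiniteIndex

/-- `M` is a product of two spaces with nontrivial fundamental groups. -/
def Splits {M : Type} [TopologicalSpace M] (x : M) : Prop :=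
  ∃ (A B : Type) (_ : TopologicalSpace A) (_ : TopologicalSpace B) (e : M ≃ₜ A × B),
    Nontrivial (FundamentalGroup A (e x).1) ∧ Nontrivial (FundamentalGroup B (e x).2)

end Vale.Agent.N216
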