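import Vale.Agent.P216MG.Bir
import Vale.Agent.N216.Defs

/-!
Straight elements generate malnormal subgroups.
-/

set_option linter.unusedSectionVars false

open Set Filter Metric
open scoped Topology

namespace Vale.Agent.N216

open Vale.Agent.P216 Vale.Agent.P216MG

variable {G X : Type} [Group G] [MetricSpace X] [MulAction G X] [IsIsometricSMul G X]
  {z q : G} {L : ℝ}

theorem str_zpow (hs : Str X z L) (k : ℤ) (y : X) : |(k : ℝ)| * L ≤ dist y (z ^ k • y) := by
  obtain ⟨n, rfl | rfl⟩ := k.eq_nat_or_neg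
  · simpa using hs n y
  · have := hs n ((z ^ n)⁻¹ • y)
    rw [smul_inv_smul, dist_comm] at this
    simpa using this

theorem str_conj (hs : Str X z L) {k : ℤ} (e : IsConj q (z ^ k)) (y : X) :
    |(k : ℝ)| * L ≤ dist y (q • y) := by
  obtain ⟨u, hu⟩ := isConj_iff.1 e
  have := str_zpow hs k (u • y)
  rwa [← hu, mul_smul, inv_smul_smul, mul_smul, dist_smul] at this

theorem str_root {m : ℕ} (hm : 0 < m) (hs : Str X (z ^ m) (m * L)) : Str X z L := fun n y => by
  have h1 := hs n y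
  have h2 := dist_pow (z ^ n) y m
  rw [← pow_mul, mul_comm n m, pow_mul] at h2
  have h3 : (0 : ℝ) < m := Nat.cast_pos.2 hm
  nlinarith

theorem str_avoid [Nonempty X] (hs : Str X z L) (hL : 0 < L) {F : Set G} (hF : F.Finite) :
    ∃ n : ℕ, 0 < n ∧ ¬ ∃ b ∈ F, IsConj (z ^ n) b := by
  obtain ⟨o⟩ := ‹Nonempty X›
  obtain ⟨B, hB⟩ := (hF.image fun b => dist o (b • o)).bddAbove
  obtain ⟨n, hn⟩ := exists_nat_gt (B / L)
  refine ⟨n + 1, n.succ_pos, fun ⟨b, h1, h2⟩ => ?_⟩
  have h3 := str_conj hs (k := (n + 1 : ℕ)) (by simpa only [zpow_natCast] using h2.symm) o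
  have h4 := hB ⟨b, h1, rfl⟩
  rw [div_lt_iff₀ hL] at hn
  rw [Int.cast_natCast, Nat.abs_cast] at h3
  push_cast at h3
  linarith

variable {ι : Type} [Finite ι] {c : ι → ℝ → X} {a : ι → G} {l : ι → ℝ} {ρ : ℝ}
  (h : Nice G X c a l ρ) [ProperSpace X] [SimplyConnectedSpace X]
include h

/-- straight elements have a unique axis -/
theorem uniq {σ σ' : ℝ → X} (hs : Str X z L) (h1 : Ax σ z L) (h2 : Ax σ' z L) :
    range σ = range σ' := by
  have hδ := half_lt_self h.pos
  have hL := h1.pos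
  obtain ⟨N, C, hN, H⟩ := exists_family h1 h2 (half_pos h.pos)
  obtain ⟨F, h3, h4⟩ := h.cls (N * |C| / L)
  obtain ⟨n, hn, h5⟩ := str_avoid hs hL h3
  obtain ⟨S, h6, h7, h8, ⟨p, p1, p2⟩, q, q1, q2⟩ := H n hn
  have h9 : Str X (z ^ n) (n * L) := by simpa using hs.conj 1 n
  have h10 : ∀ {τ : ℝ → X}, Ax τ z L → Ax τ (z ^ n) (n * L) := fun a =>
    ⟨a.geo, by positivity, a.per.pow n⟩
  obtain ⟨ε, h11, h12⟩ := h.conn h9 (by positivity)
  have hK : (0 : ℝ) < (n * N : ℕ) := by positivity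
  obtain ⟨m, h13⟩ := h.descend hδ (w := z ^ n) (K := n * N) (u := (n * L + ε) ^ 2 / (n * N : ℕ))
    (v := n * N * (L / N) ^ 2 + C) fun p hp a b => not_le.1 fun e => by
      obtain ⟨τ, L', a1, a2⟩ := h.crit (by positivity) hδ hp e (lt_of_lt_of_le (by positivity) a)
      rw [div_le_iff₀' hK, ← a2] at a
      have a3 : L' ≤ n * L + N * |C| / L := by
        refine abs_le_of_sq_le_sq' (a2.trans_le ((mul_le_mul_of_nonneg_left b hK.le).trans ?_))
          (by positivity) |>.2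
        have b1 : (n * N : ℕ) * (n * N * (L / N) ^ 2 + C) = (n * L) ^ 2 + n * N * C := by
          push_cast
          field_simp
        have b2 : n * L * (N * |C| / L) = n * N * |C| := by field_simp
        have b3 := mul_le_mul_of_nonneg_left (le_abs_self C) (by positivity : (0 : ℝ) ≤ n * N)
        have b4 : (0 : ℝ) ≤ n * N * |C| := by positivity
        rw [b1, add_sq, mul_assoc 2, b2]
        linarith [sq_nonneg (N * |C| / L)]
      have a4 := (h4 τ _ L' a1 fun y => a3.trans (by simpa using h9 1 y)).resolve_right h5 1 (σ 0)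
      rw [pow_one, ← (h10 h1).per] at a4
      have a5 := h1.lip.le (s := 0) (t := 0 + n * L) (by positivity)
      have a6 := (abs_le_of_sq_le_sq' a a1.pos.le).2
      push_cast at a4
      linarith
  obtain ⟨t, ht⟩ := h.B_line (h1.lip.isometry h1.per hL hs) hδ m (h6 p1) p2 0
  obtain ⟨t', ht'⟩ := h.B_line (h2.lip.isometry h2.per hL hs) hδ m (h6 q1) q2 0
  refine h12 _ (h7.image (fun p => h.B^[m] p 0) ((continuous_apply 0).comp_continuousOn
    (((h.B_cont hδ).iterate (h.B_maps hδ) m).mono h6))) ?_ σ σ' t t' (h10 h1) (h10 h2)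
    ⟨p, p1, ht.symm⟩ ⟨q, q1, ht'.symm⟩
  rintro _ ⟨r, r1, rfl⟩
  exact lt_of_pow_lt_pow_left₀ 2 (by positivity) ((disp_sq ((h.B_maps hδ).iterate m (h6 r1)).1).trans_lt
    ((lt_div_iff₀' hK).1 (h13 r (h6 r1) (h8 r r1))))

theorem shift_of {σ σ' : ℝ → X} (hs : Str X z L) (h1 : Ax σ z L) (h2 : Ax σ' z L) :
    ∃ β, ∀ t, σ t = σ' (t + β) := by
  obtain ⟨t, ht⟩ := (uniq h hs h1 h2).le ⟨0, rfl⟩
  exact ⟨_, h.ax_shift hs h1 h2 ht.symm⟩

theorem mal_pos {j : ι} (hs : Str X (a j) (l j)) (g : G) {m : ℕ} (hm : 0 < m) {n : ℤ}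
    (e : g * a j ^ m * g⁻¹ = a j ^ n) : g ∈ Subgroup.zpowers (a j) := by
  have hj := h.ax j
  have hL := hj.pos
  have hi := hj.lip.isometry hj.per hL hs
  have h0 : ∀ k : ℤ, dist (c j 0) (a j ^ k • c j 0) = |(k : ℝ)| * l j := fun k => by
    rw [← hj.per.zpow k, hi.dist_eq, Real.dist_eq, zero_add, zero_sub, abs_neg, abs_mul,
      abs_of_pos hL]
  have h1 := str_conj hs (q := a j ^ (m : ℤ)) (k := n)
    (isConj_iff.2 ⟨g, by simpa using e⟩) (c j 0)
  have h2 := str_conj hs (q := a j ^ n) (k := m)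
    (isConj_iff.2 ⟨g, by simpa using e⟩).symm (c j 0)
  rw [h0] at h1 h2
  have h3 : |n| = |(m : ℤ)| := by
    have := le_antisymm (le_of_mul_le_mul_right h1 hL) (le_of_mul_le_mul_right h2 hL)
    exact_mod_cast this
  have hw : Str X (a j ^ m) (m * l j) := by simpa using hs.conj 1 m
  have hm' : (0 : ℝ) < m := Nat.cast_pos.2 hm
  have ha : Ax (c j) (a j ^ m) (m * l j) := ⟨hj.geo, by positivity, hj.per.pow m⟩
  rcases abs_eq_abs.1 h3 with rfl | rfl
  · rw [zpow_natCast, mul_inv_eq_iff_eq_mul] at e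
    obtain ⟨β, hβ⟩ := shift_of h hw (ha.smul (k := g) e.symm) ha
    obtain ⟨k, -, rfl⟩ := h.stab (j := j) (k := 1) (β := 0) (σ := c j) (by simp) (g := g)
      fun u => (hβ u).symm
    exact ⟨k, by simp⟩
  · have hr : Ax (fun t => g • c j (-t)) (a j ^ m) (m * l j) := by
      refine ⟨fun t => ?_, ha.pos, fun t => ?_⟩
      · refine ⟨1, one_pos, fun s s' _ _ => ?_⟩
        rw [dist_smul, hi.dist_eq, Real.dist_eq, one_mul, ← abs_neg]
        congr 1
        ring
      · have h4 := hj.per.zpow (-m) (-t)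
        have h5 : a j ^ m * g = g * a j ^ (-(m : ℤ)) := by
          rw [zpow_neg, zpow_natCast] at e ⊢
          generalize a j ^ m = w at e
          calc w * g = (g * w * g⁻¹)⁻¹ * g := by rw [e, inv_inv]
            _ = g * w⁻¹ := by group
        rw [← mul_smul, h5, mul_smul, ← h4]
        congr 2
        push_cast
        ring
    obtain ⟨β, hβ⟩ := shift_of h hw hr ha
    have h6 := hβ (-(β / 2))
    rw [neg_neg, show -(β / 2) + β = β / 2 by ring] at h6
    rw [h.free g _ h6]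
    exact one_mem _

theorem mal {j : ι} (hs : Str X (a j) (l j)) : Malnormal (a j) := by
  refine ⟨fun e => ?_, fun g m n hm e => ?_⟩
  · obtain ⟨n, h1, h2⟩ := isOfFinOrder_iff_pow_eq_one.1 e
    have h3 := hs n (c j 0)
    rw [h2, one_smul, dist_self] at h3
    exact h3.not_gt (mul_pos (Nat.cast_pos.2 h1) (h.ax j).pos)
  · obtain ⟨m, rfl | rfl⟩ := m.eq_nat_or_neg
    · exact mal_pos h hs g (m := m) (by omega) (by simpa using e)
    · refine mal_pos h hs g (m := m) (n := -n) (by omega) ?_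
      rw [zpow_neg, ← e, zpow_neg, zpow_natCast]
      group

theorem tight : Tight G := by
  classical
  obtain ⟨o⟩ : Nonempty X := inferInstance
  obtain ⟨F, h1, h2⟩ := h.cls 0
  obtain ⟨r, h3, h4⟩ : ∃ r > 0, ∀ j, r ≤ l j := by
    rcases isEmpty_or_nonempty ι with e | e
    · exact ⟨1, one_pos, fun j => e.elim j⟩
    · obtain ⟨j, hj⟩ := Finite.exists_min l
      exact ⟨l j, (h.ax j).pos, hj⟩
  refine ⟨insert 1 h1.toFinset, ((toFinite {j | Str X (a j) (l j)}).image a).toFinset,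
    fun q => dist o (q • o) / r, fun p q => ?_, fun z hz => ?_, fun q => ?_⟩
  · rw [← add_div]
    refine div_le_div_of_nonneg_right ?_ h3.le
    have := dist_triangle o (p • o) (p • q • o)
    rwa [dist_smul, ← mul_smul] at this
  · obtain ⟨j, hj, rfl⟩ := (Finite.mem_toFinset _).1 hz
    refine ⟨mal h hj, fun q k e => (le_div_iff₀ h3).2 ?_⟩
    exact (mul_le_mul_of_nonneg_left (h4 j) (abs_nonneg _)).trans (str_conj hj e o)
  · by_cases hq : q = 1
    · exact Or.inl ⟨1, Finset.mem_insert_self _ _, hq ▸ IsConj.refl _⟩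
    obtain ⟨σ, L, h5, h6⟩ := h.exists_min hq
    rcases h2 σ q L h5 (by simpa using h6) with h7 | ⟨b, h7, h8⟩
    · obtain ⟨j, k, β, e⟩ := h.all σ q L h5
      obtain ⟨m, rfl, rfl⟩ := h.stab e h5.per
      have h9 : 0 < m := Int.cast_pos.1 ((mul_pos_iff_of_pos_right (h.ax j).pos).1 h5.pos)
      obtain ⟨m, rfl⟩ := Int.eq_ofNat_of_zero_le h9.le
      refine Or.inr ⟨a j, (Finite.mem_toFinset _).2 ⟨j, ?_, rfl⟩, m, (isConj_iff.2 ⟨k, rfl⟩).symm⟩
      refine str_root (m := m) (by omega) ?_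
      simpa [mul_assoc] using h7.conj k⁻¹ 1
    · exact Or.inl ⟨b, Finset.mem_insert_of_mem ((Finite.mem_toFinset _).2 h7), h8⟩

end Vale.Agent.N216
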