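import Vale.Agent.N216.Defs
import Mathlib.GroupTheory.SpecificGroups.Cyclic
import Mathlib.GroupTheory.Index

/-!
Consequences of tightness.
-/

open Set Subgroup

namespace Vale.Agent.N216

variable {G H : Type} [Group G] [Group H] {z a : G}

theorem Malnormal.map (h : Malnormal z) (φ : G ≃* H) : Malnormal (φ z) := by
  refine ⟨fun e => h.1 (by simpa using φ.symm.toMonoidHom.isOfFinOrder e), fun g m n hm e => ?_⟩
  obtain ⟨k, hk⟩ := h.2 (φ.symm g) m n hm (φ.injective (by simpa using e))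
  exact ⟨k, by simpa using congrArg φ hk⟩

theorem Tight.map (h : Tight G) (φ : G ≃* H) : Tight H := by
  classical
  obtain ⟨F, Z, l, h1, h2, h3⟩ := h
  refine ⟨F.image φ, Z.image φ, fun q => l (φ.symm q), fun p q => by simpa using h1 _ _,
    fun z hz => ?_, fun q => ?_⟩
  · obtain ⟨z, hz', rfl⟩ := Finset.mem_image.1 hz
    exact ⟨(h2 z hz').1.map φ, fun q k e => (h2 z hz').2 _ k
      (by simpa using φ.symm.toMonoidHom.map_isConj e)⟩
  · rcases h3 (φ.symm q) with ⟨b, hb, e⟩ | ⟨z, hz, k, e⟩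
    · exact Or.inl ⟨φ b, Finset.mem_image_of_mem _ hb, by simpa using φ.toMonoidHom.map_isConj e⟩
    · exact Or.inr ⟨φ z, Finset.mem_image_of_mem _ hz, k,
        by simpa using φ.toMonoidHom.map_isConj e⟩

theorem Malnormal.cent (h : Malnormal z) {k : ℤ} (hk : k ≠ 0) {g : G} (e : Commute g (z ^ k)) :
    g ∈ zpowers z := h.2 g k k hk (by rw [e.eq, mul_inv_cancel_right])

theorem Malnormal.inj (h : Malnormal z) : Function.Injective fun k : ℤ => z ^ k :=
  injective_zpow_iff_not_isOfFinOrder.2 h.1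

theorem Malnormal.conj_eq (h : Malnormal z) {m n : ℤ} (e : IsConj (z ^ m) (z ^ n)) : m = n := by
  obtain ⟨g, hg⟩ := isConj_iff.1 e
  by_cases hm : m = 0
  · subst hm
    exact h.inj (by simpa using hg)
  · obtain ⟨k, rfl⟩ := h.2 g m n hm hg
    refine h.inj (Eq.trans ?_ hg)
    simp only
    group

/-- a set which meets infinitely many classes contains a power of a malnormal element -/
theorem Tight.exists_mal (h : Tight G) {S : Set G} (hS : ManyClasses S) :
    ∃ q ∈ S, ∃ (z : G) (k : ℤ), Malnormal z ∧ k ≠ 0 ∧ q = z ^ k := by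
  classical
  obtain ⟨F, Z, l, -, h2, h3⟩ := h
  obtain ⟨_, ⟨q, hq, rfl⟩, e⟩ := hS.exists_notMem_finite
    ((insert 1 F).finite_toSet.image ConjClasses.mk)
  have e' : ∀ b ∈ insert 1 F, ¬ IsConj q b := fun b hb c =>
    e ⟨b, hb, (ConjClasses.mk_eq_mk_iff_isConj.2 c).symm⟩
  obtain ⟨z, hz, k, c⟩ := (h3 q).resolve_left fun ⟨b, hb, c⟩ =>
    e' b (Finset.mem_insert_of_mem hb) c
  obtain ⟨u, hu⟩ := isConj_iff.1 c.symm
  refine ⟨q, hq, MulAut.conj u z, k, (h2 z hz).1.map _, ?_, by rw [← hu]; simp⟩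
  rintro rfl
  exact e' 1 (Finset.mem_insert_self _ _) (by simpa using c)

theorem Tight.root (h : Tight G) (ha : ManyClasses (zpowers a : Set G)) :
    ∃ (z : G) (j : ℤ), Malnormal z ∧ j ≠ 0 ∧ a = z ^ j := by
  obtain ⟨_, ⟨m, rfl⟩, z, k, h1, h2, h3⟩ := h.exists_mal ha
  obtain ⟨j, rfl⟩ := h1.cent h2 (g := a) (h3 ▸ Commute.self_zpow a m)
  refine ⟨z, j, h1, ?_, rfl⟩
  rintro rfl
  exact h2 (h1.inj (by simpa using h3.symm))

theorem Tight.cyclic (h : Tight G) (ha : ManyClasses (zpowers a : Set G)) :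
    IsCyclic (Subgroup.centralizer {a}) := by
  obtain ⟨z, j, h1, h2, rfl⟩ := h.root ha
  exact isCyclic_of_le (H' := zpowers z) fun g hg =>
    h1.cent h2 (mem_centralizer_singleton_iff.1 hg)

theorem Tight.conj_eq (h : Tight G) (ha : ManyClasses (zpowers a : Set G)) {m n : ℤ}
    (e : IsConj (a ^ m) (a ^ n)) : m = n := by
  obtain ⟨z, j, h1, h2, rfl⟩ := h.root ha
  rw [← zpow_mul, ← zpow_mul] at e
  exact mul_left_cancel₀ h2 (h1.conj_eq e)

theorem Malnormal.equiv (h : Malnormal z) : Nonempty (Multiplicative ℤ ≃* zpowers z) :=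
  ⟨MonoidHom.ofInjective (f := zpowersHom G z) fun _ _ e => h.inj e⟩

theorem Tight.comm (h : Tight G) (hG : ManyClasses (univ : Set G)) {A B : Subgroup G}
    (hA : A ≠ ⊥) (hB : B ≠ ⊥) (hc : A ≤ Subgroup.centralizer B) (hi : (A ⊔ B).FiniteIndex) :
    ∃ K : Subgroup G, K.FiniteIndex ∧ Nonempty (Multiplicative ℤ ≃* K) := by
  obtain ⟨-, -, z, -, h1, -, -⟩ := h.exists_mal hG
  have c : ∀ a ∈ A, ∀ b ∈ B, Commute a b := fun a ha b hb => (hc ha b hb).symm
  have h2 : ∀ g ∈ A ⊔ B, ∃ a ∈ A, ∃ b ∈ B, g = a * b := by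
    intro g hg
    rw [← closure_eq A, ← closure_eq B, ← Subgroup.closure_union] at hg
    induction hg using Subgroup.closure_induction with
    | mem x hx =>
      exact Or.elim hx (fun e => ⟨x, e, 1, one_mem _, by simp⟩)
        fun e => ⟨1, one_mem _, x, e, by simp⟩
    | one => exact ⟨1, one_mem _, 1, one_mem _, by simp⟩
    | mul x y _ _ hx hy =>
      obtain ⟨a, ha, b, hb, rfl⟩ := hx
      obtain ⟨a', ha', b', hb', rfl⟩ := hy
      exact ⟨_, mul_mem ha ha', _, mul_mem hb hb', (c a' ha' b hb).symm.mul_mul_mul_comm _ _⟩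
    | inv x _ hx =>
      obtain ⟨a, ha, b, hb, rfl⟩ := hx
      exact ⟨_, inv_mem ha, _, inv_mem hb, (c a ha b hb).mul_inv⟩
  have h3 : ∀ {A B : Subgroup G}, (∀ a ∈ A, ∀ b ∈ B, Commute a b) → ∀ a ∈ A, a ≠ 1 →
      a ∈ zpowers z → B ≤ zpowers z := fun c a ha h4 ⟨k, hk⟩ b hb =>
    h1.cent (k := k) (by rintro rfl; exact h4 (by simpa using hk.symm))
      (by simpa only [hk] using (c a ha b hb).symm)
  have c' : ∀ b ∈ B, ∀ a ∈ A, Commute b a := fun b hb a ha => (c a ha b hb).symm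
  obtain ⟨⟨a₀, a1⟩, a2⟩ := ne_bot_iff_exists_ne_one.1 hA
  obtain ⟨⟨b₀, b1⟩, b2⟩ := ne_bot_iff_exists_ne_one.1 hB
  have a3 : a₀ ≠ 1 := fun e => a2 (Subtype.ext e)
  have b3 : b₀ ≠ 1 := fun e => b2 (Subtype.ext e)
  obtain ⟨n, h4, -, h5⟩ := exists_pow_mem_of_index_ne_zero hi.index_ne_zero z
  obtain ⟨a, ha, b, hb, e⟩ := h2 _ h5
  have hn : (n : ℤ) ≠ 0 := by omega
  have h6 : a ∈ zpowers z := h1.cent hn (by
    rw [zpow_natCast, e]
    exact (Commute.refl a).mul_right (c a ha b hb))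
  have h7 : b ∈ zpowers z := h1.cent hn (by
    rw [zpow_natCast, e]
    exact (c' b hb a ha).mul_right (Commute.refl b))
  have h8 : A ≤ zpowers z ∧ B ≤ zpowers z := by
    by_cases e' : a = 1
    · have h9 := h3 c' b hb (by
        rintro rfl
        exact hn (h1.inj (by simpa [e'] using e))) h7
      exact ⟨h9, h3 c a₀ a1 a3 (h9 a1)⟩
    · have h9 := h3 c a ha e' h6
      exact ⟨h3 c' b₀ b1 b3 (h9 b1), h9⟩
  exact ⟨zpowers z, finiteIndex_of_le (sup_le h8.1 h8.2), h1.equiv⟩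

theorem many_of_center {K : Subgroup G} (hK : K.FiniteIndex) (h : Infinite (Subgroup.center K)) :
    ManyClasses (univ : Set G) := fun hf => by
  have h1 : Finite (ConjClasses G) := by
    rw [image_univ, ConjClasses.mk_surjective.range_eq] at hf
    exact finite_univ_iff.1 hf
  obtain ⟨c, hc⟩ := Finite.exists_infinite_fiber
    fun g : Subgroup.center K => ConjClasses.mk ((g : K) : G)
  obtain ⟨⟨g₀, h2⟩⟩ := hc.nonempty
  have h3 : ∀ g : (fun g : Subgroup.center K => ConjClasses.mk ((g : K) : G)) ⁻¹' {c},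
      ∃ u : G, u * g₀ * u⁻¹ = g := fun g =>
    isConj_iff.1 (ConjClasses.mk_eq_mk_iff_isConj.1 (Eq.trans h2 (Eq.symm g.2)))
  choose u h3 using h3
  obtain ⟨g, k, h4, h5⟩ := Finite.exists_ne_map_eq_of_infinite fun g => (u g : G ⧸ K)
  have h6 := congrArg Subtype.val (mem_center_iff.1 g₀.2 ⟨_, QuotientGroup.eq.1 h5⟩)
  refine h4 (Subtype.ext (Subtype.ext (Subtype.ext ?_)))
  rw [← h3, ← h3]
  calc u g * g₀ * (u g)⁻¹ = u g * (g₀ * ((u g)⁻¹ * u k)) * (u k)⁻¹ := by group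
    _ = _ := by
      rw [show (g₀ : G) * ((u g)⁻¹ * u k) = (u g)⁻¹ * u k * g₀ from h6.symm]
      group

theorem Tight.centre (h : Tight G) {K : Subgroup G} (hK : K.FiniteIndex)
    (hc : Infinite (Subgroup.center K)) :
    ∃ K : Subgroup G, K.FiniteIndex ∧ Nonempty (Multiplicative ℤ ≃* K) := by
  obtain ⟨z, hz⟩ := exists_ne (1 : Subgroup.center K)
  have h1 : ((z : K) : G) ≠ 1 := fun e => hz (Subtype.ext (Subtype.ext e))
  refine h.comm (many_of_center hK hc) (A := zpowers ((z : K) : G)) (B := K) (by simpa using h1)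
    (fun e => h1 ((eq_bot_iff_forall _).1 e _ z.1.2)) (zpowers_le.2 fun b hb => ?_)
    (finiteIndex_of_le le_sup_right)
  exact congrArg Subtype.val (mem_center_iff.1 z.2 ⟨b, hb⟩)

end Vale.Agent.N216
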