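import Vale.Agent.N216.Ax
import Vale.Agent.N216.Grp
import Vale.Agent.P216MG.T2
import Vale.Agent.P216Z57.Tr
import Mathlib.Topology.Homotopy.Product
import Mathlib.Analysis.SpecialFunctions.Complex.Circle

/-!
Finitely many closed geodesics: the fundamental group is tight (light closure).
-/

open Set Filter Topology Manifold Bundle
open scoped ContDiff

namespace Vale.Agent.N216L

open Vale.Agent.N216 Vale.Agent.P216 Vale.Agent.P216T Vale.Agent.P216MG Vale.Agent.P216.H126U
  Vale.Agent.P216TK

section top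

variable {N M : Type} [TopologicalSpace N] [TopologicalSpace M]

theorem pi1_bij (j : C(N, M)) (r : C(M, N)) (h1 : ∀ y, r (j y) = y) (y₀ : N)
    (h2 : ∀ x ∈ connectedComponent (j y₀), j (r x) = x) :
    Function.Bijective (FundamentalGroup.map j y₀) := by
  constructor
  · intro a b hab
    obtain ⟨a, rfl⟩ := Path.Homotopic.Quotient.mk_surjective a
    obtain ⟨b, rfl⟩ := Path.Homotopic.Quotient.mk_surjective b
    have h3 : (a.map j.continuous).Homotopic (b.map j.continuous) :=
      Path.Homotopic.Quotient.exact hab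
    have h4 := (h3.map r).pathCast (h1 y₀).symm (h1 y₀).symm
    have e : ∀ a : Path y₀ y₀,
        ((a.map j.continuous).map r.continuous).cast (h1 y₀).symm (h1 y₀).symm = a := by
      intro a
      ext t
      exact h1 (a t)
    rw [e, e] at h4
    exact Path.Homotopic.Quotient.eq.2 h4
  · intro a
    obtain ⟨a, rfl⟩ := Path.Homotopic.Quotient.mk_surjective a
    refine ⟨Path.Homotopic.Quotient.mk
      ((a.map r.continuous).cast (h1 y₀).symm (h1 y₀).symm), ?_⟩
    have e : ((a.map r.continuous).cast (h1 y₀).symm (h1 y₀).symm).map j.continuous = a := by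
      ext t
      refine h2 (a t) ?_
      exact (isPreconnected_range a.continuous).subset_connectedComponent ⟨0, a.source⟩ ⟨t, rfl⟩
    exact congrArg Path.Homotopic.Quotient.mk e

theorem pi1_equiv [LocallyConnectedSpace M] (x₀ : M) (e : N ≃ₜ connectedComponent x₀) :
    ∃ y₀ : N, Nonempty (FundamentalGroup N y₀ ≃* FundamentalGroup M x₀) := by
  classical
  have hU : IsClopen (connectedComponent x₀) :=
    ⟨isClosed_connectedComponent, isOpen_connectedComponent⟩
  let s : M → M := fun x => if x ∈ connectedComponent x₀ then x else x₀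
  have hs : Continuous s := by
    refine continuous_id.if ?_ continuous_const
    intro a ha
    have : frontier {x | x ∈ connectedComponent x₀} = ∅ := hU.frontier_eq
    rw [this] at ha
    exact ha.elim
  have hsU : ∀ x, s x ∈ connectedComponent x₀ := by
    intro x
    by_cases hx : x ∈ connectedComponent x₀
    · simp only [s, if_pos hx, hx]
    · simp only [s, if_neg hx, mem_connectedComponent]
  let j : C(N, M) := ⟨fun y => (e y).1, continuous_subtype_val.comp e.continuous⟩
  let r : C(M, N) := ⟨fun x => e.symm ⟨s x, hsU x⟩, e.symm.continuous.comp (hs.subtype_mk _)⟩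
  have h1 : ∀ y, r (j y) = y := by
    intro y
    change e.symm ⟨s (e y).1, _⟩ = y
    rw [e.symm_apply_eq]
    exact Subtype.ext (if_pos (e y).2)
  have h0 : j (e.symm ⟨x₀, mem_connectedComponent⟩) = x₀ := by
    change (e (e.symm _)).1 = x₀
    rw [e.apply_symm_apply]
  have h2 : ∀ x ∈ connectedComponent (j (e.symm ⟨x₀, mem_connectedComponent⟩)), j (r x) = x := by
    intro x hx
    rw [h0] at hx
    change (e (e.symm _)).1 = x
    rw [e.apply_symm_apply]
    exact if_pos hx
  refine ⟨e.symm ⟨x₀, mem_connectedComponent⟩, ?_⟩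
  have h3 := MulEquiv.ofBijective _ (pi1_bij j r h1 _ h2)
  rw [h0] at h3
  exact ⟨h3⟩

end top

theorem tight_riem (E : Type) [NormedAddCommGroup E] [NormedSpace ℝ E] [FiniteDimensional ℝ E]
    (M : Type) [MetricSpace M] [CompactSpace M] [ChartedSpace E M] [IsManifold 𝓘(ℝ, E) ∞ M]
    [RiemannianBundle (fun x : M => TangentSpace 𝓘(ℝ, E) x)]
    [IsContMDiffRiemannianBundle 𝓘(ℝ, E) ∞ E (fun x : M => TangentSpace 𝓘(ℝ, E) x)]
    [IsRiemannianManifold 𝓘(ℝ, E) M] (x₀ : M) (hf : (primeClosedGeodesicImages M).Finite) :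
    Tight (FundamentalGroup M x₀) := by
  have := preconnectedSpace_of_riemannian E (M := M)
  obtain ⟨X, _, _, P, _, h⟩ := exists_univ_cover E x₀
  have hM := hasSegments_of_riemannian (modelWithCornersSelf ℝ E) M
  have : LocallyCompactSpace X :=
    letI := lhCharts h.loc
    ChartedSpace.locallyCompactSpace M X
  let _ := cmet h hM
  obtain ⟨h1, _⟩ := covM h hM
  have := h1.proper
  obtain ⟨r, h2, h3, -⟩ := Geo.exists_uniqSeg E M
  obtain ⟨ι, _, c, a, l, ρ, h4⟩ := h1.nice hM (nonBranching_of_riemannian E M) hf h2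
    fun x y m m' k b d e f => (h3 x y k (1 / 2) ⟨by norm_num, by norm_num⟩).unique
      ⟨by linarith, by linarith⟩ ⟨by linarith, by linarith⟩
  exact tight h4

section Products

variable {A B M : Type} [TopologicalSpace A] [TopologicalSpace B] [TopologicalSpace M]

/-- the fundamental group of a product -/
noncomputable def prodEquiv (a : A) (b : B) :
    FundamentalGroup A a × FundamentalGroup B b ≃* FundamentalGroup (A × B) (a, b) where
  toFun p := Path.Homotopic.prod p.1 p.2
  invFun q := (Path.Homotopic.projLeft q, Path.Homotopic.projRight q)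
  left_inv p := Prod.ext (Path.Homotopic.projLeft_prod p.1 p.2) (Path.Homotopic.projRight_prod p.1 p.2)
  right_inv q := Path.Homotopic.prod_projLeft_projRight q
  map_mul' p q := (Path.Homotopic.comp_prod_eq_prod_comp q.1 q.2 p.1 p.2).symm

theorem prod_equiv (e : M ≃ₜ A × B) (x : M) : Nonempty (FundamentalGroup M x ≃*
    FundamentalGroup A (e x).1 × FundamentalGroup B (e x).2) :=
  ⟨(MulEquiv.ofBijective _ (pi1_bij (⟨e, e.continuous⟩ : C(M, A × B))
    ⟨e.symm, e.symm.continuous⟩ e.symm_apply_apply x fun y _ => e.apply_symm_apply y)).trans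
      (prodEquiv (e x).1 (e x).2).symm⟩

theorem circle_inf (b : Circle) : Infinite (FundamentalGroup Circle b) ∧
    ∀ p q : FundamentalGroup Circle b, p * q = q * p := by
  obtain ⟨t, ht⟩ := Circle.exp_surjective b
  have φ := Circle.isAddQuotientCoveringMap_exp.fundamentalGroupEquiv ⟨t, ht⟩
  have : Infinite (AddSubgroup.zmultiples (2 * Real.pi)) :=
    Infinite.of_injective (fun n : ℤ => ⟨n • (2 * Real.pi), n, rfl⟩) fun m n e =>
      smul_left_injective ℤ (by positivity) (congrArg Subtype.val e)
  refine ⟨φ.toEquiv.infinite_iff.2 (MulOpposite.opEquiv.infinite_iff.1 inferInstance),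
    fun p q => φ.injective ?_⟩
  rw [map_mul, map_mul, mul_comm (φ p)]

end Products

section Groups

variable {G H K : Type} [Group G] [Group H] [Group K]

theorem centre_of_prod (φ : G ≃* H × K) (h : Infinite K ∧ ∀ p q : K, p * q = q * p) :
    Infinite (Subgroup.center (⊤ : Subgroup G)) := by
  obtain ⟨_, h⟩ := h
  refine Infinite.of_injective (fun k : K => ⟨⟨φ.symm (1, k), trivial⟩,
    Subgroup.mem_center_iff.2 fun g => Subtype.ext (φ.injective ?_)⟩) fun k k' e => ?_
  · simp only [Subgroup.coe_mul, map_mul, MulEquiv.apply_symm_apply]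
    exact Prod.ext (by simp) (h _ _)
  · exact congrArg Prod.snd (φ.symm.injective (congrArg Subtype.val (congrArg Subtype.val e)))

theorem comm_of_prod (φ : G ≃* H × K) (h : Nontrivial H) (k : Nontrivial K) :
    ∃ A B : Subgroup G, A ≠ ⊥ ∧ B ≠ ⊥ ∧ A ≤ Subgroup.centralizer B ∧ (A ⊔ B).FiniteIndex := by
  obtain ⟨a, ha⟩ := exists_ne (1 : H)
  obtain ⟨b, hb⟩ := exists_ne (1 : K)
  refine ⟨(φ.symm.toMonoidHom.comp (MonoidHom.inl H K)).range,
    (φ.symm.toMonoidHom.comp (MonoidHom.inr H K)).range, fun e => ha ?_, fun e => hb ?_, ?_, ?_⟩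
  · simpa using (Subgroup.eq_bot_iff_forall _).1 e _ ⟨a, rfl⟩
  · simpa using (Subgroup.eq_bot_iff_forall _).1 e _ ⟨b, rfl⟩
  · rintro _ ⟨p, rfl⟩ _ ⟨q, rfl⟩
    simp [← map_mul]
  · refine Subgroup.finiteIndex_of_le (H := ⊤) fun g _ => ?_
    have e : g = φ.symm ((φ g).1, 1) * φ.symm (1, (φ g).2) := by simp [← map_mul]
    rw [e]
    exact Subgroup.mul_mem_sup ⟨_, rfl⟩ ⟨_, rfl⟩

end Groups

variable {E M : Type} [NormedAddCommGroup E] [NormedSpace ℝ E] [FiniteDimensional ℝ E]
  [TopologicalSpace M] [T2Space M] [CompactSpace M] [ChartedSpace E M]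
  [IsManifold 𝓘(ℝ, E) ∞ M] (g : P216Z57.Met E M)

theorem infinite_comp (x₀ : M)
    (h : ∀ (N : Type) [MetricSpace N] [CompactSpace N] [ChartedSpace E N]
      [IsManifold 𝓘(ℝ, E) ∞ N] [RiemannianBundle (fun x : N => TangentSpace 𝓘(ℝ, E) x)]
      [IsContMDiffRiemannianBundle 𝓘(ℝ, E) ∞ E (fun x : N => TangentSpace 𝓘(ℝ, E) x)]
      [IsRiemannianManifold 𝓘(ℝ, E) N], Nonempty (N ≃ₜ connectedComponent x₀) →
      (primeClosedGeodesicImages N).Infinite) : (P216Z57.images g).Infinite := by
  have := ChartedSpace.locallyConnectedSpace E M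
  have : CompactSpace (connectedComponent x₀) :=
    isCompact_iff_compactSpace.1 isClosed_connectedComponent.isCompact
  have : ConnectedSpace (connectedComponent x₀) :=
    isConnected_iff_connectedSpace.1 isConnected_connectedComponent
  exact P216Z57.infinite_cov g
    (isOpen_connectedComponent (x := x₀)).isOpenEmbedding_subtypeVal.isLocalHomeomorph
    Subtype.val_injective h

theorem not_tight (x₀ : M) (h : ¬ Tight (FundamentalGroup M x₀)) :
    (P216Z57.images g).Infinite := by
  have := ChartedSpace.locallyConnectedSpace E M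
  refine infinite_comp g x₀ fun N _ _ _ _ _ _ _ ⟨e⟩ => ?_
  obtain ⟨y₀, ⟨φ⟩⟩ := pi1_equiv x₀ e
  exact fun hfin => h ((tight_riem E N y₀ hfin).map φ)

end Vale.Agent.N216L
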