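import Vale.Agent.N216.Ax
import Vale.Agent.N216.Grp
import Vale.Agent.P216MG.T2
import Vale.Agent.P216Z57.Main
import Mathlib.Topology.Homotopy.Product
import Mathlib.Analysis.SpecialFunctions.Complex.Circle

/-!
Finitely many closed geodesics: the fundamental group is tight.
-/

open Set Manifold Bundle
open scoped ContDiff

namespace Vale.Agent.N216

open Vale.Agent.P216 Vale.Agent.P216T Vale.Agent.P216MG Vale.Agent.P216.H126U Vale.Agent.P216TK

theorem tight_riem (E : Type) [NormedAddCommGroup E] [NormedSpace ℝ E] [FiniteDimensional ℝ E]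
    (M : Type) [MetricSpace M] [CompactSpace M] [ChartedSpace E M] [IsManifold 𝓘(ℝ, E) ∞ M]
    [RiemannianBundle (fun x : M => TangentSpace 𝓘(ℝ, E) x)]
    [IsContMDiffRiemannianBundle 𝓘(ℝ, E) ∞ E (fun x : M => TangentSpace 𝓘(ℝ, E) x)]
    [IsRiemannianManifold 𝓘(ℝ, E) M] (x₀ : M) (hf : (primeClosedGeodesicImages M).Finite) :
    Tight (FundamentalGroup M x₀) := by
  have := preconnectedSpace_of_riemannian E (M := M)
  obtain ⟨X, _, _, P, _, h⟩ := exists_univ_cover E x₀
  have hM := hasSegments_of_riemannian (modelWithCornersSelf ℝ E) M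
  have : LocallyCompactSpace X :=
    letI := lhCharts h.loc
    ChartedSpace.locallyCompactSpace M X
  let _ := cmet h hM
  obtain ⟨h1, _⟩ := covM h hM
  have := h1.proper
  obtain ⟨r, h2, h3, -⟩ := Geo.exists_uniqSeg E M
  obtain ⟨ι, _, c, a, l, ρ, h4⟩ := h1.nice hM (nonBranching_of_riemannian E M) hf h2
    fun x y m m' k b d e f => (h3 x y k (1 / 2) ⟨by norm_num, by norm_num⟩).unique
      ⟨by linarith, by linarith⟩ ⟨by linarith, by linarith⟩
  exact tight h4

section Products

variable {A B M : Type} [TopologicalSpace A] [TopologicalSpace B] [TopologicalSpace M]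

/-- the fundamental group of a product -/
noncomputable def prodEquiv (a : A) (b : B) :
    FundamentalGroup A a × FundamentalGroup B b ≃* FundamentalGroup (A × B) (a, b) where
  toFun p := Path.Homotopic.prod p.1 p.2
  invFun q := (Path.Homotopic.projLeft q, Path.Homotopic.projRight q)
  left_inv p := Prod.ext (Path.Homotopic.projLeft_prod p.1 p.2) (Path.Homotopic.projRight_prod p.1 p.2)
  right_inv q := Path.Homotopic.prod_projLeft_projRight q
  map_mul' p q := (Path.Homotopic.comp_prod_eq_prod_comp q.1 q.2 p.1 p.2).symm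

theorem prod_equiv (e : M ≃ₜ A × B) (x : M) : Nonempty (FundamentalGroup M x ≃*
    FundamentalGroup A (e x).1 × FundamentalGroup B (e x).2) :=
  ⟨(MulEquiv.ofBijective _ (P216Z57.pi1_bij (⟨e, e.continuous⟩ : C(M, A × B))
    ⟨e.symm, e.symm.continuous⟩ e.symm_apply_apply x fun y _ => e.apply_symm_apply y)).trans
      (prodEquiv (e x).1 (e x).2).symm⟩

theorem circle_inf (b : Circle) : Infinite (FundamentalGroup Circle b) ∧
    ∀ p q : FundamentalGroup Circle b, p * q = q * p := by
  obtain ⟨t, ht⟩ := Circle.exp_surjective b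
  have φ := Circle.isAddQuotientCoveringMap_exp.fundamentalGroupEquiv ⟨t, ht⟩
  have : Infinite (AddSubgroup.zmultiples (2 * Real.pi)) :=
    Infinite.of_injective (fun n : ℤ => ⟨n • (2 * Real.pi), n, rfl⟩) fun m n e =>
      smul_left_injective ℤ (by positivity) (congrArg Subtype.val e)
  refine ⟨φ.toEquiv.infinite_iff.2 (MulOpposite.opEquiv.infinite_iff.1 inferInstance),
    fun p q => φ.injective ?_⟩
  rw [map_mul, map_mul, mul_comm (φ p)]

end Products

section Groups

variable {G H K : Type} [Group G] [Group H] [Group K]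

theorem centre_of_prod (φ : G ≃* H × K) (h : Infinite K ∧ ∀ p q : K, p * q = q * p) :
    Infinite (Subgroup.center (⊤ : Subgroup G)) := by
  obtain ⟨_, h⟩ := h
  refine Infinite.of_injective (fun k : K => ⟨⟨φ.symm (1, k), trivial⟩,
    Subgroup.mem_center_iff.2 fun g => Subtype.ext (φ.injective ?_)⟩) fun k k' e => ?_
  · simp only [Subgroup.coe_mul, map_mul, MulEquiv.apply_symm_apply]
    exact Prod.ext (by simp) (h _ _)
  · exact congrArg Prod.snd (φ.symm.injective (congrArg Subtype.val (congrArg Subtype.val e)))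

theorem comm_of_prod (φ : G ≃* H × K) (h : Nontrivial H) (k : Nontrivial K) :
    ∃ A B : Subgroup G, A ≠ ⊥ ∧ B ≠ ⊥ ∧ A ≤ Subgroup.centralizer B ∧ (A ⊔ B).FiniteIndex := by
  obtain ⟨a, ha⟩ := exists_ne (1 : H)
  obtain ⟨b, hb⟩ := exists_ne (1 : K)
  refine ⟨(φ.symm.toMonoidHom.comp (MonoidHom.inl H K)).range,
    (φ.symm.toMonoidHom.comp (MonoidHom.inr H K)).range, fun e => ha ?_, fun e => hb ?_, ?_, ?_⟩
  · simpa using (Subgroup.eq_bot_iff_forall _).1 e _ ⟨a, rfl⟩
  · simpa using (Subgroup.eq_bot_iff_forall _).1 e _ ⟨b, rfl⟩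
  · rintro _ ⟨p, rfl⟩ _ ⟨q, rfl⟩
    simp [← map_mul]
  · refine Subgroup.finiteIndex_of_le (H := ⊤) fun g _ => ?_
    have e : g = φ.symm ((φ g).1, 1) * φ.symm (1, (φ g).2) := by simp [← map_mul]
    rw [e]
    exact Subgroup.mul_mem_sup ⟨_, rfl⟩ ⟨_, rfl⟩

end Groups

variable {E M : Type} [NormedAddCommGroup E] [NormedSpace ℝ E] [FiniteDimensional ℝ E]
  [TopologicalSpace M] [T2Space M] [CompactSpace M] [ChartedSpace E M]
  [IsManifold 𝓘(ℝ, E) ∞ M] (g : P216Z57.Met E M)

theorem not_tight (x₀ : M) (h : ¬ Tight (FundamentalGroup M x₀)) :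
    (P216Z57.images g).Infinite := by
  have := ChartedSpace.locallyConnectedSpace E M
  refine P216Z57.infinite_comp g x₀ fun N _ _ _ _ _ _ _ ⟨e⟩ => ?_
  obtain ⟨y₀, ⟨φ⟩⟩ := P216Z57.pi1_equiv x₀ e
  exact fun hfin => h ((tight_riem E N y₀ hfin).map φ)

theorem of_virt (hn : 2 ≤ Module.finrank ℝ E) (x₀ : M) (h : Tight (FundamentalGroup M x₀) →
    ∃ K : Subgroup (FundamentalGroup M x₀), K.FiniteIndex ∧ Nonempty (Multiplicative ℤ ≃* K)) :
    (P216Z57.images g).Infinite := by
  by_cases e : Tight (FundamentalGroup M x₀)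
  · obtain ⟨K, h1, h2⟩ := h e
    exact P216Z57.main g hn x₀ (Or.inr (Or.inr (Or.inl ⟨K, h1, Or.inr h2⟩)))
  · exact not_tight g x₀ e

end Vale.Agent.N216
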